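import Vale.Agent.P042.WG.Spec
import Mathlib.RingTheory.Localization.Integral
import Mathlib.FieldTheory.Perfect
import Mathlib.RingTheory.UniqueFactorizationDomain.Multiplicative
import Mathlib.NumberTheory.Padics.RingHoms
set_option autoImplicit false

/-! Block G5: for almost all primes the cofactor of every `p`-adic root is a unit at the root. -/

namespace Vale.Agent.P042.WG

open Polynomial

/-- the value of a rational polynomial at a `p`-adic integer -/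
noncomputable def ev (p : ℕ) [Fact p.Prime] (z : ℤ_[p]) (f : ℚ[X]) : ℚ_[p] :=
  (f.map (algebraMap ℚ ℚ_[p])).eval (z : ℚ_[p])

lemma norm_ev_le (V : ℚ[X]) : ∃ d : ℤ, d ≠ 0 ∧ ∀ (p : ℕ) [Fact p.Prime] (z : ℤ_[p]),
    ‖(d : ℚ_[p])‖ * ‖ev p z V‖ ≤ 1 := by
  obtain ⟨d, hd, hV⟩ := IsLocalization.integerNormalization_spec (nonZeroDivisors ℤ) V
  refine ⟨d, nonZeroDivisors.ne_zero hd, fun p _ z => ?_⟩
  set W := IsLocalization.integerNormalization (nonZeroDivisors ℤ) V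
  have h1 : (((W.map (Int.castRingHom ℤ_[p])).eval z : ℤ_[p]) : ℚ_[p]) = (d : ℚ_[p]) * ev p z V := by
    have h2 := congrArg (fun f : ℚ[X] => ev p z f) hV
    simp only [ev] at h2
    rw [Polynomial.map_map, zsmul_eq_mul, Polynomial.map_mul, Polynomial.map_intCast, eval_mul,
      eval_intCast] at h2
    have h3 : (W.map ((algebraMap ℚ ℚ_[p]).comp (algebraMap ℤ ℚ))).eval (z : ℚ_[p]) =
        (((W.map (Int.castRingHom ℤ_[p])).eval z : ℤ_[p]) : ℚ_[p]) := by
      rw [eval_map, eval_map]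
      have h4 := Polynomial.hom_eval₂ W (Int.castRingHom ℤ_[p]) (PadicInt.Coe.ringHom (p := p)) z
      have h5 : (PadicInt.Coe.ringHom (p := p)).comp (Int.castRingHom ℤ_[p]) =
          (algebraMap ℚ ℚ_[p]).comp (algebraMap ℤ ℚ) := RingHom.ext_int _ _
      rw [h5] at h4
      exact h4.symm
    rw [← h3, h2, ev]
  rw [← norm_mul, ← h1]
  exact PadicInt.norm_le_one _

lemma norm_int_le (p : ℕ) [Fact p.Prime] (d : ℤ) : ‖(d : ℚ_[p])‖ ≤ 1 := by
  exact_mod_cast PadicInt.norm_le_one (d : ℤ_[p])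

lemma bezout_norm (A B : ℚ[X]) (hAB : IsCoprime A B) : ∃ d : ℤ, d ≠ 0 ∧
    ∀ (p : ℕ) [Fact p.Prime] (z : ℤ_[p]), ev p z A = 0 → ‖(d : ℚ_[p])‖ ≤ ‖ev p z B‖ := by
  obtain ⟨U, V, hUV⟩ := hAB
  obtain ⟨d, hd, hV⟩ := norm_ev_le V
  refine ⟨d, hd, fun p _ z hz => ?_⟩
  have h1 : ev p z V * ev p z B = 1 := by
    have h2 := congrArg (fun f : ℚ[X] => ev p z f) hUV
    simp only [ev, Polynomial.map_add, Polynomial.map_mul, eval_add, eval_mul, Polynomial.map_one,
      eval_one] at h2 hz ⊢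
    rw [hz, mul_zero, zero_add] at h2
    exact h2
  have h2 : ‖ev p z V‖ * ‖ev p z B‖ = 1 := by rw [← norm_mul, h1, norm_one]
  have h3 := hV p z
  have h4 := norm_nonneg (ev p z B)
  calc ‖(d : ℚ_[p])‖ = ‖(d : ℚ_[p])‖ * (‖ev p z V‖ * ‖ev p z B‖) := by rw [h2, mul_one]
    _ = (‖(d : ℚ_[p])‖ * ‖ev p z V‖) * ‖ev p z B‖ := by ring
    _ ≤ 1 * ‖ev p z B‖ := mul_le_mul_of_nonneg_right h3 h4
    _ = _ := one_mul _

lemma cofactor_unique {K : Type*} [Field K] (z : K) (m n : ℕ) (q q' : K[X])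
    (h : (X - C z) ^ m * q = (X - C z) ^ n * q') (hq : q.eval z ≠ 0) (hq' : q'.eval z ≠ 0) :
    m = n ∧ q = q' := by
  have hq0 : q ≠ 0 := by rintro rfl; simp at hq
  have hq0' : q' ≠ 0 := by rintro rfl; simp at hq'
  have h1 : ((X - C z) ^ m * q).rootMultiplicity z = m := by
    rw [mul_comm, rootMultiplicity_mul_X_sub_C_pow hq0, rootMultiplicity_eq_zero hq, zero_add]
  have h2 : ((X - C z) ^ n * q').rootMultiplicity z = n := by
    rw [mul_comm, rootMultiplicity_mul_X_sub_C_pow hq0', rootMultiplicity_eq_zero hq', zero_add]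
  have h3 : m = n := by rw [← h1, h, h2]
  subst h3
  exact ⟨rfl, mul_left_cancel₀ (pow_ne_zero _ (X_sub_C_ne_zero z)) h⟩

/-- the statement proved by induction -/
def Cof (f : ℚ[X]) : Prop := ∃ c : ℤ, c ≠ 0 ∧ ∀ (p : ℕ) [Fact p.Prime] (z : ℤ_[p]) (m : ℕ)
  (q : ℚ_[p][X]), 1 ≤ m → f.map (algebraMap ℚ ℚ_[p]) = (X - C (z : ℚ_[p])) ^ m * q →
    q.eval (z : ℚ_[p]) ≠ 0 → ‖(c : ℚ_[p])‖ ≤ ‖q.eval (z : ℚ_[p])‖

lemma root_zero {K : Type*} [Field K] (z : K) (m : ℕ) (hm : 1 ≤ m) (q : K[X]) :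
    ((X - C z) ^ m * q).eval z = 0 := by
  rw [eval_mul, eval_pow, eval_sub, eval_X, eval_C, sub_self, zero_pow (by omega), zero_mul]

theorem cof (f : ℚ[X]) : Cof f := by
  induction f using UniqueFactorizationMonoid.induction_on_coprime with
  | h0 =>
    refine ⟨1, one_ne_zero, fun p _ z m q _ h hq => ?_⟩
    exfalso
    rw [Polynomial.map_zero] at h
    rcases mul_eq_zero.1 h.symm with h1 | h1
    · exact pow_ne_zero _ (X_sub_C_ne_zero _) h1
    · rw [h1, eval_zero] at hq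
      exact hq rfl
  | h1 hu =>
    refine ⟨1, one_ne_zero, fun p _ z m q hm h _ => ?_⟩
    exfalso
    have h1 := (hu.map (mapRingHom (algebraMap ℚ ℚ_[p]))).map (evalRingHom (z : ℚ_[p]))
    rw [coe_mapRingHom, h, coe_evalRingHom, root_zero _ m hm] at h1
    exact not_isUnit_zero h1
  | @hpr π i hπ =>
    have hsep : π.Separable := hπ.irreducible.separable
    obtain ⟨d, hd, hB⟩ := bezout_norm π (derivative π) hsep
    refine ⟨d ^ i, pow_ne_zero _ hd, fun p _ z m q hm h hq => ?_⟩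
    have h0 : ev p z π = 0 := by
      have h1 := congrArg (fun g : ℚ_[p][X] => g.eval (z : ℚ_[p])) h
      beta_reduce at h1
      rw [root_zero _ m hm, Polynomial.map_pow, eval_pow] at h1
      rcases Nat.eq_zero_or_pos i with h2 | h2
      · rw [h2, pow_zero] at h1
        exact absurd h1 one_ne_zero
      · exact pow_eq_zero_iff (by omega) |>.1 h1
    have h1 := hB p z h0
    obtain ⟨ρ, hρ⟩ := dvd_iff_isRoot.2 (show IsRoot (π.map (algebraMap ℚ ℚ_[p])) (z : ℚ_[p]) from h0)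
    have h2 : ev p z (derivative π) = ρ.eval (z : ℚ_[p]) := by
      rw [ev, ← derivative_map, hρ]
      simp [derivative_mul]
    have h3 : ρ.eval (z : ℚ_[p]) ≠ 0 := by
      rw [← h2]
      intro h4
      rw [h4, norm_zero] at h1
      have h5 : (d : ℚ_[p]) = 0 := norm_le_zero_iff.1 h1
      exact hd (by exact_mod_cast h5)
    have h4 : (X - C (z : ℚ_[p])) ^ m * q = (X - C (z : ℚ_[p])) ^ i * ρ ^ i := by
      rw [← h, Polynomial.map_pow, hρ, mul_pow]
    obtain ⟨_, h5⟩ := cofactor_unique _ _ _ _ _ h4 hq (by rw [eval_pow]; exact pow_ne_zero _ h3)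
    rw [h5, eval_pow, norm_pow, ← h2]
    push_cast
    rw [norm_pow]
    exact pow_le_pow_left₀ (norm_nonneg _) h1 i
  | @hcp f g hfg hf hg =>
    obtain ⟨c1, hc1, hf⟩ := hf
    obtain ⟨c2, hc2, hg⟩ := hg
    have hco : IsCoprime f g := hfg.isCoprime
    obtain ⟨d1, hd1, hB1⟩ := bezout_norm f g hco
    obtain ⟨d2, hd2, hB2⟩ := bezout_norm g f hco.symm
    refine ⟨(c1 * d1) * (c2 * d2), mul_ne_zero (mul_ne_zero hc1 hd1) (mul_ne_zero hc2 hd2), ?_⟩
    intro p _ z m q hm h hq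
    -- the general step
    have step : ∀ (f g : ℚ[X]) (c d : ℤ), d ≠ 0 →
        (∀ (m : ℕ) (q : ℚ_[p][X]), 1 ≤ m → f.map (algebraMap ℚ ℚ_[p]) = (X - C (z : ℚ_[p])) ^ m * q →
          q.eval (z : ℚ_[p]) ≠ 0 → ‖(c : ℚ_[p])‖ ≤ ‖q.eval (z : ℚ_[p])‖) →
        (ev p z f = 0 → ‖(d : ℚ_[p])‖ ≤ ‖ev p z g‖) → ev p z f = 0 → f ≠ 0 →
        (f * g).map (algebraMap ℚ ℚ_[p]) = (X - C (z : ℚ_[p])) ^ m * q →
        ‖((c * d : ℤ) : ℚ_[p])‖ ≤ ‖q.eval (z : ℚ_[p])‖ := by
      intro f g c d hd hf hB h0 hf0 h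
      have h1 := hB h0
      have hg0 : ev p z g ≠ 0 := by
        intro h4
        rw [h4, norm_zero] at h1
        have h5 : (d : ℚ_[p]) = 0 := norm_le_zero_iff.1 h1
        exact hd (by exact_mod_cast h5)
      have hfm : f.map (algebraMap ℚ ℚ_[p]) ≠ 0 := by
        rw [Ne, Polynomial.map_eq_zero]; exact hf0
      obtain ⟨qf, hqf, hnd⟩ := exists_eq_pow_rootMultiplicity_mul_and_not_dvd _ hfm (z : ℚ_[p])
      set m' := (f.map (algebraMap ℚ ℚ_[p])).rootMultiplicity (z : ℚ_[p])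
      have hm' : 1 ≤ m' := (rootMultiplicity_pos hfm).2 h0
      have hqf0 : qf.eval (z : ℚ_[p]) ≠ 0 := fun h5 => hnd (dvd_iff_isRoot.2 h5)
      have h2 := hf m' qf hm' hqf hqf0
      have h3 : (X - C (z : ℚ_[p])) ^ m * q =
          (X - C (z : ℚ_[p])) ^ m' * (qf * g.map (algebraMap ℚ ℚ_[p])) := by
        rw [← h, Polynomial.map_mul, hqf, mul_assoc]
      obtain ⟨_, h5⟩ := cofactor_unique _ _ _ _ _ h3 hq (by
        rw [eval_mul]; exact mul_ne_zero hqf0 hg0)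
      rw [h5, eval_mul, norm_mul]
      push_cast
      rw [norm_mul]
      exact mul_le_mul h2 h1 (norm_nonneg _) (norm_nonneg _)
    have hfg0 : f * g ≠ 0 := by
      rintro h0
      rw [h0, Polynomial.map_zero] at h
      rcases mul_eq_zero.1 h.symm with h1 | h1
      · exact pow_ne_zero _ (X_sub_C_ne_zero _) h1
      · rw [h1, eval_zero] at hq
        exact hq rfl
    have h0 : ev p z f * ev p z g = 0 := by
      have h1 := congrArg (fun g : ℚ_[p][X] => g.eval (z : ℚ_[p])) h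
      beta_reduce at h1
      rw [root_zero _ m hm, Polynomial.map_mul, eval_mul] at h1
      exact h1
    have n1 : ‖((c1 * d1 : ℤ) : ℚ_[p])‖ ≤ 1 := norm_int_le p _
    have n2 : ‖((c2 * d2 : ℤ) : ℚ_[p])‖ ≤ 1 := norm_int_le p _
    have e1 : ‖(((c1 * d1) * (c2 * d2) : ℤ) : ℚ_[p])‖ =
        ‖((c1 * d1 : ℤ) : ℚ_[p])‖ * ‖((c2 * d2 : ℤ) : ℚ_[p])‖ := by
      rw [← norm_mul]; push_cast; ring_nf
    rw [e1]
    rcases mul_eq_zero.1 h0 with h1 | h1
    · have h2 := step f g c1 d1 hd1 (fun m q => hf p z m q) (hB1 p z) h1 (left_ne_zero_of_mul hfg0) h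
      calc _ ≤ ‖((c1 * d1 : ℤ) : ℚ_[p])‖ * 1 := mul_le_mul_of_nonneg_left n2 (norm_nonneg _)
        _ ≤ _ := by rw [mul_one]; exact h2
    · have h2 := step g f c2 d2 hd2 (fun m q => hg p z m q) (hB2 p z) h1 (right_ne_zero_of_mul hfg0)
        (by rw [mul_comm]; exact h)
      calc _ ≤ 1 * ‖((c2 * d2 : ℤ) : ℚ_[p])‖ := mul_le_mul_of_nonneg_right n1 (norm_nonneg _)
        _ ≤ _ := by rw [one_mul]; exact h2

/-- block G5 -/
theorem g5 : G5 := by
  intro h _
  obtain ⟨c, hc, hcof⟩ := cof (h.map (Int.castRingHom ℚ))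
  refine ⟨c.natAbs + 1, fun p _ hp z m q hm hq hqz => ?_⟩
  have hpp : p.Prime := Fact.out
  have h1 : (h.map (Int.castRingHom ℚ)).map (algebraMap ℚ ℚ_[p]) =
      (X - C (z : ℚ_[p])) ^ m * q.map (PadicInt.Coe.ringHom (p := p)) := by
    have h2 := congrArg (Polynomial.map (PadicInt.Coe.ringHom (p := p))) hq
    rw [Polynomial.map_map, Polynomial.map_mul, Polynomial.map_pow, Polynomial.map_sub, map_X,
      map_C] at h2
    rw [Polynomial.map_map]
    have h3 : (algebraMap ℚ ℚ_[p]).comp (Int.castRingHom ℚ) =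
        (PadicInt.Coe.ringHom (p := p)).comp (Int.castRingHom ℤ_[p]) := RingHom.ext_int _ _
    rw [h3]
    exact h2
  have h2 : (q.map (PadicInt.Coe.ringHom (p := p))).eval (z : ℚ_[p]) = ((q.eval z : ℤ_[p]) : ℚ_[p]) := by
    have := Polynomial.eval_map_apply (f := PadicInt.Coe.ringHom (p := p)) (p := q) z
    exact this
  have h3 := hcof p z m _ hm h1 (by
    rw [h2]
    intro h4
    apply hqz
    exact Subtype.ext h4)
  rw [h2] at h3
  have h4 : ‖(c : ℚ_[p])‖ = 1 := by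
    have h5 : ¬ (p : ℤ) ∣ c := by
      intro h6
      have h7 := Nat.le_of_dvd (Nat.pos_of_ne_zero (Int.natAbs_ne_zero.2 hc)) (Int.natCast_dvd.1 h6)
      omega
    have h6 := (Padic.norm_intCast_lt_one_iff (p := p) (k := c)).not.2 h5
    exact le_antisymm (norm_int_le p c) (not_lt.1 h6)
  rw [h4] at h3
  rw [PadicInt.isUnit_iff]
  exact le_antisymm (PadicInt.norm_le_one _) (by exact_mod_cast h3)

end Vale.Agent.P042.WG
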